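import Vale.Agent.P252G.DivW.Field

/-!
Vanishing of the total divergence of the weighted fields.
-/

open Finset Topology Filter MeasureTheory Set

noncomputable section

set_option maxSynthPendingDepth 3

namespace Vale.Agent.P252G.Calc

variable {n : ℕ} {u : E n → ℝ} {Ω : Set (E n)}

namespace Smooth

/-- The total divergence of a field vanishing to order two at the boundary of a section. -/
lemma integral_cut (S : Smooth Ω u) (h : ℝ) {d : ℕ} (hn : 2 ≤ d) {W : Set (E n)} (hW : IsOpen W)
    (hWΩ : W ⊆ Ω) {R : E n → E n} (hR : ContDiffOn ℝ (↑(⊤ : ℕ∞)) R W)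
    (hK : IsCompact {x | x ∈ Ω ∧ u x ≤ h}) (hKW : {x | x ∈ Ω ∧ u x ≤ h} ⊆ W) :
    IntegrableOn (fun x => tr3 (fderiv ℝ (fun y => (h - u y) ^ d • R y) x))
        {x | x ∈ Ω ∧ u x < h} volume ∧
      ∫ x in {x | x ∈ Ω ∧ u x < h}, tr3 (fderiv ℝ (fun y => (h - u y) ^ d • R y) x) = 0 := by
  classical
  set K := {x | x ∈ Ω ∧ u x ≤ h} with hKdef
  set O := {x | x ∈ Ω ∧ u x < h} with hOdef
  have hOopen : IsOpen O := S.smooth.continuousOn.isOpen_inter_preimage S.isOpen isOpen_Iio
  have hOK : O ⊆ K := fun x hx => ⟨hx.1, hx.2.le⟩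
  have hKΩ : K ⊆ W := hKW
  set G := fun y => (h - u y) ^ d • R y with hG
  have hGc : ContDiffOn ℝ (↑(⊤ : ℕ∞)) G W :=
    ((contDiffOn_const.sub (S.smooth.mono hWΩ)).pow d).smul hR
  have hGd : ∀ x ∈ W, DifferentiableAt ℝ G x := fun x hx =>
    (hGc.contDiffAt (hW.mem_nhds hx)).differentiableAt (by simp)
  have hcont : ∀ i, ContinuousOn (fun x => fderiv ℝ G x (sgl i) i) W := fun i =>
    (EuclideanSpace.proj i : (E n) →L[ℝ] ℝ).continuous.comp_continuousOn
      (((hGc.fderiv_of_isOpen hW (m := (↑(⊤ : ℕ∞))) (by simp)).continuousOn).clm_apply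
        continuousOn_const)
  have hint : ∀ i, IntegrableOn (fun x => fderiv ℝ G x (sgl i) i) O volume := fun i =>
    (((hcont i).mono hKΩ).integrableOn_compact hK).mono_set hOK
  refine ⟨integrable_finsetSum _ fun i _ => hint i, ?_⟩
  simp only [tr3]
  rw [integral_finsetSum _ fun i _ => hint i]
  refine Finset.sum_eq_zero fun i _ => ?_
  set f : (E n) → ℝ := K.indicator fun x => G x i with hf
  have hGi : ∀ x ∈ W, HasFDerivAt (fun y => G y i)
      ((EuclideanSpace.proj i : (E n) →L[ℝ] ℝ) ∘L fderiv ℝ G x) x := fun x hx =>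
    (EuclideanSpace.proj i : (E n) →L[ℝ] ℝ).hasFDerivAt.comp x (hGd x hx).hasFDerivAt
  have hd : ∀ x, HasFDerivAt f
      (O.indicator (fun x => (EuclideanSpace.proj i : (E n) →L[ℝ] ℝ) ∘L fderiv ℝ G x) x) x := by
    intro x
    by_cases hxO : x ∈ O
    · rw [indicator_of_mem hxO]
      refine (hGi x (hKW (hOK hxO))).congr_of_eventuallyEq ?_
      exact eventually_of_mem (hOopen.mem_nhds hxO) fun y hy => indicator_of_mem (hOK hy) _
    rw [indicator_of_notMem hxO]
    by_cases hxK : x ∈ K
    · have hv : h - u x = 0 := by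
        have := le_antisymm hxK.2 (not_lt.1 fun h1 => hxO ⟨hxK.1, h1⟩)
        linarith
      have h0 : G x = 0 := by
        simp [hG, hv, zero_pow (show d ≠ 0 by omega)]
      have hp := HasFDerivAt.pow ((S.dAt S.smooth hxK.1).const_sub h) d
      have h1 : HasFDerivAt G (0 : (E n) →L[ℝ] (E n)) x := by
        have hR' : DifferentiableAt ℝ R x :=
          (hR.contDiffAt (hW.mem_nhds (hKW hxK))).differentiableAt (by simp)
        refine (hp.fun_smul hR'.hasFDerivAt).congr_fderiv ?_
        simp [hv, zero_pow (show d ≠ 0 by omega), zero_pow (show d - 1 ≠ 0 by omega)]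
      have h2 : HasFDerivAt (fun y => G y i) (0 : (E n) →L[ℝ] ℝ) x := by
        simpa [Function.comp_def] using
          (EuclideanSpace.proj i : (E n) →L[ℝ] ℝ).hasFDerivAt.comp x h1
      refine HasFDerivAt.of_isLittleO ?_
      have h3 := h2.isLittleO
      simp only [zero_apply, sub_zero, hf, indicator_of_mem hxK, h0, PiLp.zero_apply] at h3 ⊢
      refine (Asymptotics.IsBigO.of_norm_le fun y => ?_).trans_isLittleO h3.norm_left
      exact norm_indicator_le_norm_self (fun y => G y i) y
    · refine (hasFDerivAt_const (0 : ℝ) x).congr_of_eventuallyEq ?_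
      exact eventually_of_mem (hK.isClosed.isOpen_compl.mem_nhds hxK) fun y hy =>
        indicator_of_notMem hy _
  have hfd : ∀ x, fderiv ℝ f x (sgl i) = O.indicator (fun x => fderiv ℝ G x (sgl i) i) x := by
    intro x
    rw [(hd x).fderiv]
    by_cases hxO : x ∈ O <;> simp [hxO]
  have hI : Integrable (fun x => fderiv ℝ f x (sgl i)) := by
    rw [funext hfd, integrable_indicator_iff hOopen.measurableSet]
    exact hint i
  have hfI : Integrable f := by
    rw [hf, integrable_indicator_iff hK.isClosed.measurableSet]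
    exact ((EuclideanSpace.proj i : (E n) →L[ℝ] ℝ).continuous.comp_continuousOn
      (hGc.continuousOn.mono hKΩ)).integrableOn_compact hK
  have := integral_mul_fderiv_eq_neg_fderiv_mul_of_integrable (μ := volume) (f := f)
    (g := fun _ => (1 : ℝ)) (v := sgl i) (by simpa using hI) (by simp) (by simpa using hfI)
    (fun x _ => (hd x).differentiableAt) (fun x _ => differentiableAt_const _)
  rw [← integral_indicator hOopen.measurableSet, ← funext hfd]
  simpa using this

end Smooth

end Vale.Agent.P252G.Calc
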