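import Vale.Agent.P252G.DivW.Spec
import Vale.Agent.P252G.DivW.Cut
import Vale.Agent.P252G.Div.Main
import Vale.Agent.P252G.Sections

/-!
The weighted divergence identities on the sections of a solution.
-/

open Finset Topology Filter MeasureTheory Set

noncomputable section

set_option maxSynthPendingDepth 3

namespace Vale.Agent.P252G.Calc

open Vale.Agent.P252G (Sol qX dt lg DivSpecW)

variable {n : ℕ}

lemma upv_quad_nonneg {u : E n → ℝ} {Ω : Set (E n)} (S : Smooth Ω u) {x : E n} (hx : x ∈ Ω)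
    (w : E n →L[ℝ] ℝ) : 0 ≤ w (upv u x w) ∧ (w ≠ 0 → 0 < w (upv u x w)) := by
  have h1 : w (upv u x w) = gg u x (upv u x w) (upv u x w) := by rw [S.gg_upv hx]
  by_cases hz : upv u x w = 0
  · have : w = 0 := by rw [← S.gg_upv hx w, hz, map_zero]
    exact ⟨by rw [hz, map_zero], fun h => (h this).elim⟩
  · rw [h1]
    exact ⟨(S.gg_pos hx hz).le, fun _ => S.gg_pos hx hz⟩

lemma Dbar_pos (P : Sol n) {h ρ : ℝ} (hh : 0 < h) (hρ : 0 < ρ) {x : E n} (hx : x ∈ P.csec h) :
    0 < Dbar P.u h ρ x := by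
  have S := smooth_sol P
  have hX := (upv_quad_nonneg S hx.1 (DLf P.u x)).1
  have hv : 0 ≤ h - P.u x := sub_nonneg.2 hx.2
  have hY := upv_quad_nonneg S hx.1 (du P.u x)
  unfold Dbar zL
  have h1 : 0 ≤ (h - P.u x) ^ 2 * DLf P.u x (upv P.u x (DLf P.u x)) :=
    mul_nonneg (sq_nonneg _) hX
  rcases hv.lt_or_eq with hv | hv
  · nlinarith [mul_nonneg hρ.le hY.1]
  · have hne : du P.u x ≠ 0 := by
      intro h0
      have hxp : x ≠ P.p₀ := fun e => by
        have hu : P.u x = h := by linarith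
        rw [e, P.val₀] at hu
        linarith
      have h2 := P252B.tangent_lt P.adm hx.1 P.mem₀ hxp
      have h3 : fderiv ℝ P.u x = 0 := h0
      rw [h3, P.val₀] at h2
      simp at h2
      linarith
    nlinarith [mul_pos hρ (hY.2 hne)]

/-- The weighted divergence identities. -/
theorem divSpecW (n : ℕ) (σ : ℝ) (m : ℕ) : DivSpecW n σ m := by
  classical
  intro P h hh
  have S := smooth_sol P
  have hop : IsOpen (P.sec h) := P.isOpen_sec h
  have hms : MeasurableSet (P.sec h) := hop.measurableSet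
  set J : (E n) → Jet n := fun x =>
    if hx : x ∈ P.Ω then jet P.u h (S.exists_frame hx).choose x else jet P.u h (fun _ => 0) x
    with hJ
  refine ⟨J, fun x hx => ?_, fun ⟨F, k, r, ρ⟩ ⟨hm, hρ⟩ => ?_⟩
  · have he := (S.exists_frame hx.1).choose_spec
    simp only [hJ, dif_pos hx.1]
    exact ⟨S.jet_valid P.am hx.1 hx.2 he, jet_X S hx.1 he h, rfl⟩
  simp only at hm hρ
  have hm' : udeg F k ≤ m := le_trans (Nat.le_add_right _ 2) hm
  have hDc : ContDiffOn ℝ (↑(⊤ : ℕ∞)) (Dbar P.u h ρ) P.Ω :=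
    (((contDiffOn_const.sub S.smooth).pow 2).mul (S.cd_DLf.clm_apply (S.cd_upv S.cd_DLf))).add
      (contDiffOn_const.mul (S.cd_du.clm_apply (S.cd_upv S.cd_du))) |>.add
      (contDiffOn_const.sub S.smooth)
  set W := {y | y ∈ P.Ω ∧ 0 < Dbar P.u h ρ y} with hWdef
  have hW : IsOpen W := hDc.continuousOn.isOpen_inter_preimage S.isOpen isOpen_Ioi
  have hWΩ : W ⊆ P.Ω := fun y hy => hy.1
  have hKW : {x | x ∈ P.Ω ∧ P.u x ≤ h} ⊆ W := fun y hy => ⟨hy.1, Dbar_pos P hh hρ hy⟩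
  have hR : ContDiffOn ℝ (↑(⊤ : ℕ∞)) (regW P.u σ h F k r ρ) W :=
    ((((contDiffOn_const.sub S.smooth).pow (2 * r)).mono hWΩ).mul
      (((hDc.mono hWΩ).pow r).inv fun y hy => pow_ne_zero r hy.2.ne')).smul
      ((S.cd_fieldT σ h 0 F k).mono hWΩ)
  obtain ⟨hI, h0⟩ := S.integral_cut h (d := m - udeg F k) (by omega) hW hWΩ hR
    (P.isCompact_csec h) hKW
  have hkey : EqOn
      (fun x => tr3 (fderiv ℝ (fun y => (h - P.u y) ^ (m - udeg F k) • regW P.u σ h F k r ρ y) x))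
      (fun x => P.cut h x ^ m * dt P.u x ^ σ * (J x).PhiT σ m ⟨F, k, r, ρ⟩) (P.sec h) := by
    intro x hx
    have he := (S.exists_frame hx.1).choose_spec
    have hev : (fun y => (h - P.u y) ^ (m - udeg F k) • regW P.u σ h F k r ρ y) =ᶠ[𝓝 x]
        fieldW P.u σ h m F k r ρ :=
      eventually_of_mem (hop.mem_nhds hx) fun y hy =>
        (fieldW_eq σ ρ F k r hm' (sub_pos.2 hy.2).ne').symm
    simp only [hev.fderiv_eq, S.tr3_fieldW P.am hx.1 hx.2 he σ m F k r hρ.le, hJ, dif_pos hx.1,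
      Jet.PhiT]
    congr 2
    rw [Real.rpow_def_of_pos (show 0 < dt P.u x from (S.pos x hx.1).det_pos)]
    congr 1
    simp only [Lf, dt]
    have h2 : (n : ℝ) + 2 ≠ 0 := by positivity
    field_simp
  exact ⟨IntegrableOn.congr_fun hI hkey hms, (setIntegral_congr_fun hms hkey).symm.trans h0⟩

end Vale.Agent.P252G.Calc
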