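import Vale.Agent.P252G.Div.Jet

/-!
Forms with rational weights: the monomial weights divided by a power of `X + ρ Y + T`.
-/

open Finset

noncomputable section

namespace Vale.Agent.P252G.Jet

variable {n : ℕ} (J : Jet n)

/-- The denominator `X + ρ Y + T`. -/
def D (ρ : ℝ) : ℝ := J.X + ρ * J.Y + J.T

/-- Its gradient. -/
def dD (ρ : ℝ) (i : Fin n) : ℝ := J.dX i + ρ * J.dY i + J.T * J.U i

/-- The divergence form of one field with weight `mono e / D ^ r`. -/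
def PhiW (σ : ℝ) (m : ℕ) (F : Fld) (e : ℕ × ℕ × ℕ) (r : ℕ) (ρ : ℝ) : ℝ :=
  J.Phi σ m F e / J.D ρ ^ r - (r : ℝ) * J.mono e * dot (J.dD ρ) (J.w F) / J.D ρ ^ (r + 1)

lemma PhiW_zero (σ : ℝ) (m : ℕ) (F : Fld) (e : ℕ × ℕ × ℕ) (ρ : ℝ) :
    J.PhiW σ m F e 0 ρ = J.Phi σ m F e := by
  simp [PhiW]

lemma D_pos (hT : 0 < J.T) {ρ : ℝ} (hρ : 0 ≤ ρ) : 0 < J.D ρ := by
  have h1 : 0 ≤ J.X := by
    unfold X dot
    exact Finset.sum_nonneg fun i _ => mul_self_nonneg (J.L i)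
  have h2 : 0 ≤ J.Y := by
    unfold Y dot
    exact Finset.sum_nonneg fun i _ => mul_self_nonneg (J.U i)
  unfold D
  positivity

end Vale.Agent.P252G.Jet
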