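import Vale.Agent.P252G.Div.Spec
import Vale.Agent.P252G.DivW.Jet

/-!
Interface of the weighted divergence module.
-/

open Set MeasureTheory

noncomputable section

namespace Vale.Agent.P252G

open Vale.Agent.P252B (V)

/-- A term of a weighted certificate: field, monomial, power of the denominator, its parameter. -/
structure WTerm where
  F : Fld
  e : ℕ × ℕ × ℕ
  r : ℕ
  ρ : ℝ

/-- Admissible terms for the cutoff exponent `m`. -/
def WTerm.Ok (t : WTerm) (m : ℕ) : Prop := udeg t.F t.e + 2 ≤ m ∧ 0 < t.ρ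

/-- The divergence form of a term. -/
def Jet.PhiT {n : ℕ} (J : Jet n) (σ : ℝ) (m : ℕ) (t : WTerm) : ℝ := J.PhiW σ m t.F t.e t.r t.ρ

/-- On each section there is a jet at every point whose weighted forms integrate to zero. -/
def DivSpecW (n : ℕ) (σ : ℝ) (m : ℕ) : Prop :=
  ∀ (P : Sol n) (h : ℝ), 0 < h → ∃ J : V n → Jet n,
    (∀ x ∈ P.sec h, (J x).Valid ∧ (J x).X = qX P.u x ∧ (J x).T = (P.cut h x)⁻¹) ∧
    ∀ t : WTerm, t.Ok m →
      IntegrableOn (fun x => P.cut h x ^ m * dt P.u x ^ σ * (J x).PhiT σ m t) (P.sec h) volume ∧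
      (∫ x in P.sec h, P.cut h x ^ m * dt P.u x ^ σ * (J x).PhiT σ m t) = 0

/-- The pointwise certificate with weighted terms. -/
def PointCertW {ι : Type} [Fintype ι] (n q : ℕ) (σ : ℝ) (m : ℕ) (t : ι → WTerm) (c : ι → ℝ)
    (ε N : ℝ) : Prop :=
  ∀ J : Jet n, J.Valid → ε * J.X ^ q - N * J.T ^ q ≤ ∑ i, c i * J.PhiT σ m (t i)

end Vale.Agent.P252G
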