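import Vale.Agent.P252G.Div.Homog
import Vale.Agent.P252G.DivW.Jet

/-!
The divergence of the fields with rational weights.
-/

open Finset Topology Filter MeasureTheory Set

noncomputable section

set_option maxSynthPendingDepth 3

namespace Vale.Agent.P252G.Calc

open Vale.Agent.P252B (IsAM)

variable {n : ℕ} {u : E n → ℝ} {Ω : Set (E n)} {x : E n} {e : Fin n → E n} {h : ℝ}

/-- The denominator as a function. -/
def DF (u : E n → ℝ) (h ρ : ℝ) (y : E n) : ℝ :=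
  DLf u y (zL u y) + ρ * Uf u h y (zU u h y) + (h - u y)⁻¹

/-- The denominator without poles. -/
def Dbar (u : E n → ℝ) (h ρ : ℝ) (y : E n) : ℝ :=
  (h - u y) ^ 2 * DLf u y (zL u y) + ρ * du u y (upv u y (du u y)) + (h - u y)

/-- The weighted field. -/
def fieldW (u : E n → ℝ) (σ h : ℝ) (m : ℕ) (F : Fld) (k : ℕ × ℕ × ℕ) (r : ℕ) (ρ : ℝ) (y : E n) :
    E n :=
  (DF u h ρ y ^ r)⁻¹ • field u σ h m F k y

/-- The regular factor of the weighted field. -/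
def regW (u : E n → ℝ) (σ h : ℝ) (F : Fld) (k : ℕ × ℕ × ℕ) (r : ℕ) (ρ : ℝ) (y : E n) : E n :=
  ((h - u y) ^ (2 * r) * (Dbar u h ρ y ^ r)⁻¹) • fieldT u σ h 0 F k y

lemma DF_eq (ρ : ℝ) {y : E n} (hy : h - u y ≠ 0) :
    DF u h ρ y = ((h - u y) ^ 2)⁻¹ * Dbar u h ρ y := by
  simp only [DF, Dbar, zU, Uf, upv, map_smul, smul_apply, smul_eq_mul]
  field_simp

lemma fieldW_eq (σ ρ : ℝ) {m : ℕ} (F : Fld) (k : ℕ × ℕ × ℕ) (r : ℕ) (hm : udeg F k ≤ m) {y : E n}
    (hy : h - u y ≠ 0) :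
    fieldW u σ h m F k r ρ y = (h - u y) ^ (m - udeg F k) • regW u σ h F k r ρ y := by
  rw [fieldW, field_eq σ h F k hm hy, DF_eq ρ hy]
  simp only [regW, fieldT, smul_smul, pow_zero, one_mul]
  congr 1
  rw [mul_pow, mul_inv, inv_pow, inv_inv, ← pow_mul]
  ring

namespace Smooth

lemma tr3_fieldW (S : Smooth Ω u) (hAM : IsAM Ω u) (hx : x ∈ Ω) (hv : u x < h)
    (he : Frame u x e) (σ : ℝ) (m : ℕ) (F : Fld) (k : ℕ × ℕ × ℕ) (r : ℕ) {ρ : ℝ} (hρ : 0 ≤ ρ) :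
    tr3 (fderiv ℝ (fieldW u σ h m F k r ρ) x) =
      (h - u x) ^ m * Real.exp (-((n : ℝ) + 2) * σ * Lf u x) *
        (jet u h e x).PhiW σ m F k r ρ := by
  obtain ⟨⟨dX0, dX1⟩, ⟨dP0, dP1⟩, ⟨dY0, dY1⟩⟩ := S.fderiv_scalars hx hv he
  obtain ⟨hfd, hftr⟩ := S.tr3_field hAM hx hv he σ m F k
  obtain ⟨-, -, hw2⟩ := S.trace_wf hAM hx hv he F
  set J := jet u h e x with hJ
  have hne : h - u x ≠ 0 := (sub_pos.2 hv).ne'
  have hX : DLf u x (zL u x) = J.X := by rw [zL, S.apply_upv hx he]; rfl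
  have hP : DLf u x (zU u h x) = J.P := by
    rw [zU, S.apply_upv hx he]
    exact Finset.sum_congr rfl fun i _ => mul_comm _ _
  have hY : Uf u h x (zU u h x) = J.Y := by rw [zU, S.apply_upv hx he]; rfl
  have hT : (h - u x)⁻¹ = J.T := rfl
  have hD : DF u h ρ x = J.D ρ := by rw [DF, hX, hY, hT]; rfl
  have hDp : 0 < J.D ρ := J.D_pos (inv_pos.2 (sub_pos.2 hv)) hρ
  have hT' : HasFDerivAt (fun y => (h - u y)⁻¹) _ x :=
    (hasDerivAt_inv hne).comp_hasFDerivAt x ((S.dAt S.smooth hx).const_sub h)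
  have hD' : HasFDerivAt (DF u h ρ) _ x :=
    (dX0.hasFDerivAt.add (dY0.hasFDerivAt.const_mul ρ)).add hT'
  have hDv : ∀ c, fderiv ℝ (DF u h ρ) x (e c) = J.dD ρ c := fun c => by
    rw [hD'.fderiv]
    simp only [add_apply, smul_apply, smul_eq_mul, dX1, dY1, neg_apply, Jet.dD]
    simp [hJ, jet, Uf, du]
    field_simp
  have hφ : HasFDerivAt (fun y => (DF u h ρ y ^ r)⁻¹) _ x :=
    (hasDerivAt_inv (pow_ne_zero r (hD ▸ hDp.ne'))).comp_hasFDerivAt x
      (HasFDerivAt.pow hD'.differentiableAt.hasFDerivAt r)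
  have hfl : fieldW u σ h m F k r ρ =
      fun y => (DF u h ρ y ^ r)⁻¹ • field u σ h m F k y := rfl
  rw [hfl, (hφ.fun_smul hfd.hasFDerivAt).fderiv]
  rw [tr3_frame he] at hftr ⊢
  simp only [add_apply, smul_apply, ContinuousLinearMap.smulRight_apply,
    map_add, map_smul, smul_eq_mul,
    Finset.sum_add_distrib, ← Finset.mul_sum, hftr, hDv, hD]
  have hfv : ∀ c, gg u x (field u σ h m F k x) (e c) =
      (h - u x) ^ m * Real.exp (-((n : ℝ) + 2) * σ * Lf u x) * J.mono k * J.w F c := fun c => by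
    simp only [field, monoF, map_smul, smul_apply, smul_eq_mul, S.gg_upv hx, hw2, hX, hP, hY,
      Jet.mono]
  simp only [hfv, nsmul_eq_mul, Jet.PhiW]
  rcases Nat.eq_zero_or_pos r with rfl | hr
  · simp
  obtain ⟨s, rfl⟩ := Nat.exists_eq_add_of_le' hr
  simp only [Nat.add_sub_cancel, dot, Finset.mul_sum, Finset.sum_div]
  rw [mul_sub, Finset.mul_sum, eq_sub_iff_add_eq, add_assoc, ← Finset.sum_add_distrib]
  rw [Finset.sum_eq_zero fun c _ => ?_, add_zero]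
  · rw [div_eq_inv_mul]
    ring
  · have hD0 := hDp.ne'
    push_cast
    field_simp
    ring

end Smooth

end Vale.Agent.P252G.Calc
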