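import Vale.Agent.P252G.DivW.Main
import Vale.Agent.P252G.Final
import Vale.Agent.P252MN.Mass

/-!
Rigidity in dimension `n` from a weighted pointwise certificate.
-/

open Set MeasureTheory

namespace Vale.Agent.P252G

open Vale.Agent.P252B (V Admissible IsAM)

/-- The integrated certificate. -/
theorem certSpecW {ι : Type} [Fintype ι] {n q : ℕ} {σ : ℝ} {M : ℕ} {t : ι → WTerm}
    {c : ι → ℝ} {ε N : ℝ} (hok : ∀ i, (t i).Ok (M + q)) (hε : 0 < ε)
    (hP : PointCertW n q σ (M + q) t c ε N) : CertSpec n q σ M := by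
  refine ⟨N / ε, fun P h hh => ?_⟩
  obtain ⟨J, hJ, hI⟩ := Calc.divSpecW n σ (M + q) P h hh
  set w := fun x => P.cut h x ^ (M + q) * dt P.u x ^ σ with hw
  have hrp : ContinuousOn (fun x => dt P.u x ^ σ) P.Ω :=
    P.contDiffOn_dt.continuousOn.rpow_const fun _ hx => Or.inl (P.dt_pos hx).ne'
  have int_on : ∀ {f : V n → ℝ}, ContinuousOn f P.Ω → IntegrableOn f (P.sec h) volume :=
    fun hf => ((hf.mono (P.csec_subset h)).integrableOn_compact (P.isCompact_csec h)).mono_set
      (P.sec_subset_csec h)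
  have iX : IntegrableOn (fun x => P.cut h x ^ (M + q) * qX P.u x ^ q * dt P.u x ^ σ) (P.sec h)
      volume :=
    int_on ((((P.continuousOn_cut h).pow _).mul (P.continuousOn_qX.pow q)).mul hrp)
  have iT : IntegrableOn (fun x => P.cut h x ^ M * dt P.u x ^ σ) (P.sec h) volume :=
    int_on (((P.continuousOn_cut h).pow M).mul hrp)
  have iS : IntegrableOn (fun x => ∑ i, c i * (w x * (J x).PhiT σ (M + q) (t i))) (P.sec h)
      volume :=
    integrable_finsetSum _ fun i _ => (hI _ (hok i)).1.const_mul _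
  have key : (∫ x in P.sec h, (ε * (P.cut h x ^ (M + q) * qX P.u x ^ q * dt P.u x ^ σ) -
      N * (P.cut h x ^ M * dt P.u x ^ σ))) ≤ 0 := by
    refine (setIntegral_mono_on ((iX.const_mul ε).sub (iT.const_mul N)) iS (P.measurableSet_sec h)
      fun x hx => ?_).trans_eq ?_
    · obtain ⟨hv, hX, hT⟩ := hJ x hx
      have hc : 0 < P.cut h x := sub_pos.2 hx.2
      have hw0 : 0 ≤ w x := mul_nonneg (pow_nonneg hc.le _)
        (Real.rpow_nonneg (P.dt_pos (P.sec_subset h hx)).le _)
      have h1 := mul_le_mul_of_nonneg_left (hP (J x) hv) hw0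
      rw [hX, hT, Finset.mul_sum] at h1
      refine le_trans (le_of_eq ?_) (h1.trans_eq (Finset.sum_congr rfl fun i _ => by ring))
      simp only [hw, Pi.sub_apply]
      rw [pow_add (P.cut h x) M q, inv_pow]
      field_simp
    · rw [integral_finsetSum _ fun i _ => (hI _ (hok i)).1.const_mul _]
      refine Finset.sum_eq_zero fun i _ => ?_
      rw [integral_const_mul, (hI _ (hok i)).2, mul_zero]
  rw [integral_sub (iX.const_mul ε) (iT.const_mul N), integral_const_mul, integral_const_mul] at key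
  rw [div_mul_eq_mul_div, le_div_iff₀ hε]
  linarith

/-- Rigidity from a weighted certificate and a mass bound with a smaller exponent. -/
theorem rigidSpecW {ι : Type} [Fintype ι] {n q M M₀ : ℕ} {σ θ : ℝ} {t : ι → WTerm}
    {c : ι → ℝ} {ε N : ℝ} (hσ0 : 0 ≤ σ) (hσθ : σ ≤ θ) (hq : (n : ℝ) * max σ (1 - σ) < q)
    (hM₀ : MassSpec n θ M₀) (hM : M₀ ≤ M) (hok : ∀ i, (t i).Ok (M + q)) (hε : 0 < ε)
    (hP : PointCertW n q σ (M + q) t c ε N) : RigidSpec n := by
  obtain ⟨d, rfl⟩ := Nat.exists_eq_add_of_le hM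
  intro Ω u hne hu
  constructor
  · rintro ⟨ham, hC⟩
    obtain ⟨hΩ, A, b, k, h⟩ := rigidity hσ0 hσθ hq (P252MN.massSpec_mono d hM₀)
      (certSpecW hok hε hP) (detConstSpec n) Ω u hne hu ham (hC.isClosed_graph hu)
    subst hΩ
    exact ⟨rfl, P252D.paraboloid_form hu h⟩
  · rintro ⟨rfl, S, b, k, -, h⟩
    exact paraboloid_complete hu h

end Vale.Agent.P252G
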